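import Vale.Agent.P167.H980.Q.Mom980b
import Vale.Agent.P167.H662.L.LDefs2

/-!
# P167, general `q`, block L-MOM (helper980): with helper662's `TwoF`
-/

namespace Vale.Agent.P167.H980.Q

open Vale.Agent.P167
open Vale.Agent.P167.H825 (Box)
open Vale.Agent.P167.H638.L (obox)

/-- **(L-MOM)** with helper662's literal `TwoF`. -/
theorem l_mom {S : CA.Dat} {F : CAQ.Fam S} (GP : Box → Prop)
    (hbx : ∀ x ∈ S.P, ∃ b : Box, b.Ok S.Q ∧ GP b ∧ x ∈ obox b)
    (h : H662.L.TwoF F.s S F.L GP (fun n f => (F.Vc n fun z => (f z : ℂ)).re)) (hM : M2F F) :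
    F.MOM :=
  s_momF GP hbx h hM

end Vale.Agent.P167.H980.Q
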