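import Vale.Agent.P167.CA.Mom
import Vale.Agent.P167.CAQ.Path

/-!
# P167, general `q`, block L-MOM (helper980): from (2a) to the first moments, law free

`M2F F` is the bound for two charges `f + s g`, `s` complex and small (helper542's `m2_datQ`).
`s_momF : TwoF → M2F → MOM`.
-/

namespace Vale.Agent.P167.H980.Q

open MeasureTheory Filter Topology Set Complex Metric
open Vale.Agent.P167 Vale.Agent.P167.BR
open Vale.Agent.P167.BR (sites)
open Vale.Agent.P167.BVP (Test)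
open Vale.Agent.P167.CA (Dat cms)
open Vale.Agent.P167.CAQ (Fam FamAt Supp)
open Vale.Agent.P167.H825 (Box)
open Vale.Agent.P167.H638.L (obox)
open P198W (lap)
open scoped ContDiff Manifold

/-- (2a) for all neutral charges (verbatim `H662.L.TwoF`). -/
def TwoF (σ : ℝ) (S : CA.Dat) (L : Filter ℕ) (GP : Box → Prop) (V : ℕ → (ℤ × ℤ → ℝ) → ℝ) :
    Prop :=
  ∀ f : ℂ → ℝ, S.FF f → ∀ b : Box, b.Ok S.Q → GP b → ∀ ψ : ℂ → ℝ, Test (obox b) ψ → ∀ s : ℝ,
    Tendsto (fun n : ℕ => V n (CA.cms (fun z => f z + s * P198W.lap ψ z) (1 / n)) -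
      Real.exp (σ * s * (∫ z, f z * ψ z) -
        σ / 2 * s ^ 2 * ∫ z, ((fderiv ℝ ψ z 1) ^ 2 + (fderiv ℝ ψ z Complex.I) ^ 2)) *
      V n (CA.cms f (1 / n))) L (𝓝 0)

/-- (M2) for two charges. -/
def M2F {S : Dat} (F : Fam S) : Prop :=
  ∀ f g : ℂ → ℝ, S.FF f → S.FF g → ∃ ρ > 0, ∃ C : ℝ, ∀ᶠ n : ℕ in F.L,
    ∀ s : ℂ, ‖s‖ ≤ ρ →
      ‖F.Vc n (fun z => (cms f (1 / n) z : ℂ) + s * (cms g (1 / n) z : ℂ))‖ ≤ C

/-- From the characteristic function to the first moment, along any filter. -/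
theorem moment_stepL {L : Filter ℕ} {V : ℕ → ℂ → ℂ} {r C : ℝ} (hr : 0 < r)
    (hV : ∀ᶠ n in L, DifferentiableOn ℂ (V n) (ball 0 r))
    (hC : ∀ᶠ n in L, ∀ z ∈ ball (0 : ℂ) r, ‖V n z‖ ≤ C) {α : ℝ → ℂ} {α' : ℂ} (hα0 : α 0 = 1)
    (hα : HasDerivAt α α' 0)
    (hlim : ∀ s : ℝ, |s| < r → Tendsto (fun n => V n s - α s * V n 0) L (𝓝 0)) :
    Tendsto (fun n => deriv (V n) 0 - α' * V n 0) L (𝓝 0) := by
  wlog hC0 : 0 ≤ C generalizing C
  · exact this (C := max C 0) (hC.mono fun n hn z hz => (hn z hz).trans (le_max_left _ _))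
      (le_max_right _ _)
  rw [Metric.tendsto_nhds]
  intro ε hε
  -- choose s
  have h1 : ∀ᶠ s : ℝ in 𝓝 0, ‖α s - α 0 - (s - 0) • α'‖ ≤ ε / (4 * (C + 1)) * ‖s - 0‖ :=
    (hasDerivAt_iff_isLittleO.1 hα).def (by positivity)
  obtain ⟨η, hη, hη'⟩ := Metric.eventually_nhds_iff.1 h1
  set K : ℝ := 16 * C / r ^ 2 with hK
  have hK0 : 0 ≤ K := by positivity
  obtain ⟨s, hs0, hs1, hs2, hs3⟩ : ∃ s : ℝ, 0 < s ∧ s ≤ r / 8 ∧ s < η ∧ K * s ≤ ε / 4 := by
    refine ⟨min (r / 8) (min (η / 2) (ε / (4 * (K + 1)))), by positivity, min_le_left _ _,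
      lt_of_le_of_lt ((min_le_right _ _).trans (min_le_left _ _)) (by linarith), ?_⟩
    have h2 : min (r / 8) (min (η / 2) (ε / (4 * (K + 1)))) ≤ ε / (4 * (K + 1)) :=
      (min_le_right _ _).trans (min_le_right _ _)
    calc K * _ ≤ K * (ε / (4 * (K + 1))) := mul_le_mul_of_nonneg_left h2 hK0
      _ ≤ (K + 1) * (ε / (4 * (K + 1))) := mul_le_mul_of_nonneg_right (by linarith) (by positivity)
      _ = ε / 4 := by field_simp
  have h2 := hη' (y := s) (by rw [Real.dist_eq, sub_zero, abs_of_pos hs0]; exact hs2)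
  rw [hα0, sub_zero, Real.norm_of_nonneg hs0.le] at h2
  have h3 := (Metric.tendsto_nhds.1 (hlim s (by rw [abs_of_pos hs0]; linarith))) (ε / 4 * s)
    (by positivity)
  filter_upwards [h3, hC, hV] with n h4 h5 hVn
  rw [dist_zero_right] at h4 ⊢
  have hsn : ‖(s : ℂ)‖ = s := by rw [Complex.norm_real, Real.norm_of_nonneg hs0.le]
  have h6 := H542.taylor_one hr hVn h5 (s := s) (by rw [hsn]; exact hs1)
  rw [hsn] at h6
  have h7 : ‖V n 0‖ ≤ C := h5 0 (mem_ball_self hr)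
  -- the identity
  have e : (s : ℂ) * (deriv (V n) 0 - α' * V n 0) = (V n s - α s * V n 0) +
      (α s - 1 - s • α') * V n 0 - (V n s - V n 0 - s * deriv (V n) 0) := by
    rw [Complex.real_smul]; ring
  have h8 : s * ‖deriv (V n) 0 - α' * V n 0‖ ≤ ε / 4 * s + ε / (4 * (C + 1)) * s * C + K * s ^ 2 := by
    rw [← hsn, ← norm_mul, e, hsn]
    refine (norm_sub_le _ _).trans (add_le_add ((norm_add_le _ _).trans (add_le_add h4.le ?_)) h6)
    rw [norm_mul]
    exact mul_le_mul h2 h7 (norm_nonneg _) (by positivity)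
  have h9 : ε / (4 * (C + 1)) * s * C ≤ ε / 4 * s := by
    have : ε / (4 * (C + 1)) * C ≤ ε / 4 := by
      rw [div_mul_eq_mul_div, div_le_div_iff₀ (by positivity) (by positivity)]
      nlinarith
    calc ε / (4 * (C + 1)) * s * C = ε / (4 * (C + 1)) * C * s := by ring
      _ ≤ _ := mul_le_mul_of_nonneg_right this hs0.le
  have h10 : K * s ^ 2 ≤ ε / 4 * s := by
    calc K * s ^ 2 = K * s * s := by ring
      _ ≤ _ := mul_le_mul_of_nonneg_right hs3 hs0.le
  have h11 : s * ‖deriv (V n) 0 - α' * V n 0‖ ≤ s * (3 * ε / 4) := by linarith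
  have h12 := le_of_mul_le_mul_left h11 hs0
  linarith

section mom
variable {S : Dat} (F : Fam S)

/-- The statement of `MOM` for a test function. -/
def MomAtF (f ψ : ℂ → ℝ) : Prop :=
  Tendsto (fun n : ℕ => F.HS n (lap ψ) f + F.s * (∫ z, f z * ψ z) * F.V n f) F.L (𝓝 0)

variable {F}

theorem MomAtF.add {f ψ φ : ℂ → ℝ} (hf : S.FF f) (hψ : Test S.P ψ) (hφ : Test S.P φ)
    (h1 : MomAtF F f ψ) (h2 : MomAtF F f φ) : MomAtF F f fun z => ψ z + φ z := by
  unfold MomAtF at *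
  have h := h1.add h2
  rw [add_zero] at h
  refine h.congr fun n => ?_
  have e1 : lap (fun z => ψ z + φ z) = fun z => lap ψ z + lap φ z := by
    funext z
    exact CA.lap_add (hψ.1.of_le P198W.two_le_infty) (hφ.1.of_le P198W.two_le_infty) z
  have e2 : ∫ z, f z * (ψ z + φ z) = (∫ z, f z * ψ z) + ∫ z, f z * φ z := by
    simp_rw [mul_add]
    refine integral_add ?_ ?_
    · exact (hf.1.1.continuous.mul hψ.1.continuous).integrable_of_hasCompactSupport
        hψ.2.1.mul_left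
    · exact (hf.1.1.continuous.mul hφ.1.continuous).integrable_of_hasCompactSupport
        hφ.2.1.mul_left
  rw [e2, e1]
  have e3 : ∀ z, cms (fun z => lap ψ z + lap φ z) (1 / n) z =
      cms (lap ψ) (1 / n) z + cms (lap φ) (1 / n) z := fun z =>
    CA.cms_add (CA.Test.integrable (CA.Test.lap hψ)) (CA.Test.integrable (CA.Test.lap hφ)) _ z
  unfold Fam.HS
  simp_rw [e3, add_mul]
  rw [Finset.sum_add_distrib]
  ring

theorem momAtF_zero (f : ℂ → ℝ) : MomAtF F f fun _ => 0 := by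
  unfold MomAtF Fam.HS
  rw [CA.lap_zero]
  simp only [CA.cms_zero, zero_mul, Finset.sum_const_zero, mul_zero, integral_zero, add_zero]
  exact tendsto_const_nhds

/-- Test functions in a box. -/
theorem momAtF_box {GP : Box → Prop}
    (h2a : TwoF F.s S F.L GP (fun n f => (F.Vc n fun z => (f z : ℂ)).re)) (hM : M2F F)
    {f : ℂ → ℝ} (hf : S.FF f) {b : Box} (hb : b.Ok S.Q) (hb' : GP b) {ψ : ℂ → ℝ}
    (hψ : Test (obox b) ψ) : MomAtF F f ψ := by
  have hψP : Test S.P ψ := ⟨hψ.1, hψ.2.1, hψ.2.2.trans (CA.obox_sub hb)⟩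
  have hg := CA.FF.lap hψP
  obtain ⟨ρ, hρ, C, hC⟩ := hM f (lap ψ) hf hg
  set A : ℝ := ∫ z, f z * ψ z with hA
  set E : ℝ := ∫ z, ((fderiv ℝ ψ z 1) ^ 2 + (fderiv ℝ ψ z I) ^ 2) with hE
  set W : ℕ → ℂ → ℂ := fun n s =>
    F.Vc n (fun z => (cms f (1 / n) z : ℂ) + s * (cms (lap ψ) (1 / n) z : ℂ)) with hW
  have hsup : ∀ᶠ n : ℕ in F.L, FamAt S n (F.Vc n) (F.Hl n) (F.b n) ∧
      Supp S n (cms f (1 / n)) ∧ Supp S n (cms (lap ψ) (1 / n)) := by
    filter_upwards [F.good] with n hn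
    exact ⟨hn.2, CAQ.supp_cms hn.1 hf.1, CAQ.supp_cms hn.1 hg.1⟩
  have hreal : ∀ᶠ n : ℕ in F.L, ∀ s : ℝ, W n s =
      (((F.Vc n fun z => ((cms (fun z => f z + s * lap ψ z) (1 / n) z : ℝ) : ℂ)).re : ℝ) : ℂ) := by
    filter_upwards [hsup] with n hn s
    obtain ⟨hF, h1, h2⟩ := hn
    have e : (fun z => ((cms (fun z => f z + s * lap ψ z) (1 / n) z : ℝ) : ℂ)) =
        fun z => (cms f (1 / n) z : ℂ) + (s : ℂ) * (cms (lap ψ) (1 / n) z : ℂ) := by
      funext z
      rw [CA.cms_add (CA.Test.integrable hf.1) ((CA.Test.integrable hg.1).const_mul s), CA.cms_smul]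
      push_cast
      ring
    have hs3 : Supp S n (cms (fun z => f z + s * lap ψ z) (1 / n)) := by
      intro z hz
      by_contra hc
      have a1 : cms f (1 / n) z = 0 := by
        by_contra h; exact hc (h1 z h)
      have a2 : cms (lap ψ) (1 / n) z = 0 := by
        by_contra h; exact hc (h2 z h)
      apply hz
      rw [CA.cms_add (CA.Test.integrable hf.1) ((CA.Test.integrable hg.1).const_mul s), CA.cms_smul,
        a1, a2, mul_zero, add_zero]
    have him := hF.real _ hs3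
    rw [hW]
    simp only
    rw [← e]
    exact Complex.ext (by simp) (by simpa using him)
  have key := moment_stepL (L := F.L) (V := W) (r := ρ) (C := C) hρ
    (hsup.mono fun n hn => (hn.1.entire _ _ (CAQ.supp_ofReal hn.2.1)
      (CAQ.supp_ofReal hn.2.2)).differentiableOn)
    (hC.mono fun n hn z hz => hn z (by rw [mem_ball_zero_iff] at hz; exact hz.le))
    (α := fun s => ((Real.exp (F.s * s * A - F.s / 2 * s ^ 2 * E) : ℝ) : ℂ))
    (α' := ((F.s * A : ℝ) : ℂ)) (by simp) ?_ ?_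
  · have h2 := (Complex.continuous_re.tendsto _).comp key.neg
    simp only [Complex.zero_re, neg_zero] at h2
    unfold MomAtF
    refine h2.congr' ?_
    filter_upwards [hsup, hreal] with n hn hr
    obtain ⟨hF, h1, h3⟩ := hn
    have hd := hF.der _ _ h1 h3
    have hd' : deriv (W n) 0 =
        ((-∑ z ∈ sites (S.D n), cms (lap ψ) (1 / n) z * F.Hl n (cms f (1 / n)) z : ℝ) : ℂ) := hd
    have h0 : W n 0 = ((F.V n f : ℝ) : ℂ) := by
      have := hr 0
      rw [Complex.ofReal_zero] at this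
      rw [this]
      simp only [zero_mul, add_zero]
      rfl
    simp only [Function.comp_apply]
    rw [hd', h0]
    unfold Fam.HS Fam.H
    simp
    ring
  · have h1 : HasDerivAt (fun s : ℝ => F.s * s * A - F.s / 2 * s ^ 2 * E) (F.s * A) 0 := by
      have a1 : HasDerivAt (fun s : ℝ => F.s * s * A) (F.s * 1 * A) 0 :=
        ((hasDerivAt_id (0 : ℝ)).const_mul F.s).mul_const A
      have a2 : HasDerivAt (fun s : ℝ => F.s / 2 * s ^ 2 * E)
          (F.s / 2 * (2 * 0 ^ (2 - 1) * 1) * E) 0 :=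
        (((hasDerivAt_id (0 : ℝ)).pow 2).const_mul (F.s / 2)).mul_const E
      exact (a1.fun_sub a2).congr_deriv (by ring)
    have h2 := h1.exp
    have h3 : HasDerivAt (fun s : ℝ => Real.exp (F.s * s * A - F.s / 2 * s ^ 2 * E))
        (F.s * A) 0 := by simpa using h2
    exact h3.ofReal_comp
  · intro s _
    have h1 := h2a f hf b hb hb' ψ hψ s
    have h2 := (Complex.continuous_ofReal.tendsto 0).comp h1
    rw [Complex.ofReal_zero] at h2
    refine h2.congr' ?_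
    filter_upwards [hreal] with n hr
    have e0 := hr 0
    rw [Complex.ofReal_zero] at e0
    rw [hr s, e0]
    simp only [Function.comp_apply, zero_mul, add_zero]
    push_cast
    rfl

/-- **(L-MOM)**: from (2a) to the first moments. -/
theorem s_momF (GP : Box → Prop) (hbx0 : ∀ x ∈ S.P, ∃ b : Box, b.Ok S.Q ∧ GP b ∧ x ∈ obox b)
    (h2a : TwoF F.s S F.L GP (fun n f => (F.Vc n fun z => (f z : ℂ)).re)) (hM : M2F F) :
    F.MOM := by
  intro f ψ hf hψ
  change MomAtF F f ψ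
  set K := tsupport ψ with hK
  have hKc : IsCompact K := hψ.2.1
  have hbox : ∀ x : ℂ, ∃ b : Box, x ∈ K → b.Ok S.Q ∧ GP b ∧ x ∈ obox b := by
    intro x
    by_cases hx : x ∈ K
    · obtain ⟨b, hb⟩ := hbx0 x (hψ.2.2 hx)
      exact ⟨b, fun _ => hb⟩
    · exact ⟨⟨0, 0, 0, 0⟩, fun h => absurd h hx⟩
  choose bx hbx using hbox
  obtain ⟨t, ht1, ht2⟩ := hKc.elim_nhds_subcover (fun x => obox (bx x))
    fun x hx => (CA.isOpen_obox _).mem_nhds (hbx x hx).2.2
  obtain ⟨ρ, hρ⟩ := SmoothPartitionOfUnity.exists_isSubordinate (modelWithCornersSelf ℝ ℂ)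
    (isClosed_tsupport ψ) (fun i : t => obox (bx i)) (fun i => CA.isOpen_obox _) (by
      intro x hx
      obtain ⟨i, hi⟩ := mem_iUnion.1 (ht2 hx)
      obtain ⟨hi1, hi2⟩ := mem_iUnion.1 hi
      exact mem_iUnion.2 ⟨⟨i, hi1⟩, hi2⟩)
  have hρs : ∀ i : t, Test (obox (bx i)) fun z => ρ i z * ψ z := by
    intro i
    refine ⟨(ρ i).contMDiff.contDiff.mul hψ.1, hψ.2.1.mul_left, ?_⟩
    exact (tsupport_mul_subset_left (f := fun z => ρ i z) (g := ψ)).trans (hρ i)
  have hρP : ∀ i : t, Test S.P fun z => ρ i z * ψ z := fun i =>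
    ⟨(hρs i).1, (hρs i).2.1, (hρs i).2.2.trans (CA.obox_sub (hbx i (ht1 i i.2)).1)⟩
  have hsum : ∀ s : Finset t, Test S.P (fun z => ∑ i ∈ s, ρ i z * ψ z) ∧
      MomAtF F f fun z => ∑ i ∈ s, ρ i z * ψ z := by
    classical
    intro s
    induction s using Finset.induction_on with
    | empty =>
      simp only [Finset.sum_empty]
      exact ⟨(CA.FF.zero S).1, momAtF_zero f⟩
    | insert a s ha ih =>
      simp only [Finset.sum_insert ha]
      obtain ⟨hb1, hb2, -⟩ := hbx a (ht1 a a.2)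
      exact ⟨CA.Test.add' (hρP a) ih.1, MomAtF.add hf (hρP a) ih.1
        (momAtF_box h2a hM hf hb1 hb2 (hρs a)) ih.2⟩
  have hfin := (hsum Finset.univ).2
  have e : (fun z => ∑ i, ρ i z * ψ z) = ψ := by
    funext z
    rw [← Finset.sum_mul]
    by_cases hz : z ∈ K
    · have := ρ.sum_eq_one hz
      rw [finsum_eq_sum_of_fintype] at this
      rw [this, one_mul]
    · rw [image_eq_zero_of_notMem_tsupport hz, mul_zero]
  rwa [e] at hfin

end mom

end Vale.Agent.P167.H980.Q
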