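import Vale.Agent.P167.H980.Q.Mom980
import Vale.Agent.P167.H542.Q.FamB

/-!
# P167, general `q`, block L-MOM (helper980): the bound `M2F` for helper542's families
-/

namespace Vale.Agent.P167.H980.Q

open Finset MeasureTheory Filter Topology
open Vale.Agent.P167 Vale.Agent.P167.BR Vale.Agent.P167.H542 Vale.Agent.P167.FK
open Vale.Agent.P167.H542.Q

/-- **(M2) for two charges**, helper542's family. -/
theorem fam_M2F {S : CA.Dat} {Q m c : ℝ} (hQ : 0 < Q) (hQ1 : 1 ≤ Q) (hRSW : RSW Q) (hm0 : 0 ≤ m)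
    (hm1 : m ≤ Real.pi / 3) (X : FD S Q m c) (s : ℝ) : M2F (fam hQ X s) := by
  intro f g hf hg
  obtain ⟨C, -, h⟩ := m2_datQ c hQ1 hRSW hm0 hm1 S f g hf hg 1
  refine ⟨1, one_pos, C, ?_⟩
  have h' : ∀ᶠ n : ℕ in X.L, ∀ η : Cfg, Good η → ∀ p, Bas (S.D n) p →
      ∀ th, Phs m c (S.D n) th → ∀ t : ℝ, |t| ≤ 1 → ∀ s : ℂ, ‖s‖ ≤ 1 →
      ‖VQ Q (S.D n) η th p (Fc f g n t s)‖ ≤ C := h.filter_mono X.le
  show ∀ᶠ n : ℕ in X.L, _
  filter_upwards [h', X.good, X.phs, X.bas] with n h1 h2 h3 h4 s hs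
  have h5 := h1 _ h2 _ h4 _ h3 1 (by simp) s hs
  have e : Fc f g n 1 s = fun z => (CA.cms f (1 / n) z : ℂ) + s * (CA.cms g (1 / n) z : ℂ) := by
    funext z
    unfold Fc
    push_cast
    ring
  rw [e] at h5
  exact h5

/-- **(M2) for two charges**, the Dobrushin functionals. -/
theorem famB_M2F {S : CA.Dat} {θ β : ℝ} (X : BD S θ β) (h0 : 0 < θ) (h1 : θ ≤ Real.pi / 3)
    (hβ : Real.cos (θ / 2 + β) = Real.sin θ) (hRSW : RSW (2 * Real.cos θ)) :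
    M2F (X.famB h0 h1 hβ) :=
  fam_M2F (BD.cos_pos h0 h1) (BD.one_le h0 h1) hRSW h0.le h1 _ _

end Vale.Agent.P167.H980.Q
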